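import Mathlib
import Vale.Agent.H5.Spanner
import Vale.Agent.H73.Sampling

/-!
# P249: dimension reduction in `L_p` with `n (log n)^(p+1)` coordinates

Assembly: greedy spanner with logarithmic stretch and linearly many edges
(`Vale.Agent.H5.exists_spanner`), pointwise domination of all pairwise differences
along spanner walks, importance sampling of coordinates with the density given by
the spanner edges (`Vale.Agent.H73.exists_sample`).
-/

open MeasureTheory

namespace Vale.Agent.Lead.P249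

universe u

section LpFacts
variable {α : Type u} [MeasurableSpace α] {μ : Measure α} {p : ENNReal}

lemma integral_rpow_sub (hp0 : p ≠ 0) (hpt : p ≠ ⊤) (x y : Lp ℝ p μ) :
    ∫ a, |x a - y a| ^ p.toReal ∂μ = ‖x - y‖ ^ p.toReal := by
  have hmem : MemLp (⇑(x - y)) p μ := Lp.memLp (x - y)
  have h1 := hmem.eLpNorm_eq_integral_rpow_norm hp0 hpt
  have hr : 0 < p.toReal := ENNReal.toReal_pos hp0 hpt
  have hnn : 0 ≤ ∫ a, ‖(x - y) a‖ ^ p.toReal ∂μ := integral_nonneg (fun a => by positivity)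
  have h2 : ‖x - y‖ = (∫ a, ‖(x - y) a‖ ^ p.toReal ∂μ) ^ p.toReal⁻¹ := by
    rw [Lp.norm_def, h1, ENNReal.toReal_ofReal (by positivity)]
  rw [h2, ← Real.rpow_mul hnn, inv_mul_cancel₀ hr.ne', Real.rpow_one]
  apply integral_congr_ae
  filter_upwards [Lp.coeFn_sub x y] with a ha
  rw [Real.norm_eq_abs, ha, Pi.sub_apply]

lemma integrable_rpow_sub (hp0 : p ≠ 0) (hpt : p ≠ ⊤) (x y : Lp ℝ p μ) :
    Integrable (fun a => |x a - y a| ^ p.toReal) μ := by
  have hmem : MemLp (⇑(x - y)) p μ := Lp.memLp (x - y)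
  have h1 := hmem.integrable_norm_rpow hp0 hpt
  refine h1.congr ?_
  filter_upwards [Lp.coeFn_sub x y] with a ha
  rw [Real.norm_eq_abs, ha, Pi.sub_apply]

end LpFacts



lemma dim_bound (n : ℕ) (hn : 2 ≤ n) (r ε : ℝ) (hr1 : 1 ≤ r) (hε : 0 < ε) (c : ℕ)
    (hc : c ≤ n * n) :
    ((⌊3 * ((2 * ((Nat.log 3 n + 1 : ℕ) : ℝ) - 1) ^ r * (3 * n)) *
        Real.log (2 * (c : ℝ) + 1) / ε ^ 2⌋₊ + 1 : ℕ) : ℝ) ≤
      (36 * 4 ^ r / ε ^ 2 + 2 ^ (r + 1)) * n * (Real.log n) ^ (r + 1) := by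
  have hr0 : 0 < r := by linarith
  have hn2 : (2 : ℝ) ≤ n := by exact_mod_cast hn
  have hlog2 : (0.6931471803 : ℝ) < Real.log 2 := Real.log_two_gt_d9
  have hlogn : Real.log 2 ≤ Real.log n := Real.log_le_log (by norm_num) hn2
  have hℓ : (1 : ℝ) ≤ 2 * Real.log n := by linarith
  have hℓ0 : 0 < Real.log n := by linarith
  have hlog3 : (1 : ℝ) < Real.log 3 := by
    have h1 : Real.exp 1 < 3 := by have := Real.exp_one_lt_d9; linarith
    exact (Real.lt_log_iff_exp_lt (by norm_num)).mpr h1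
  have hnatlog : (Nat.log 3 n : ℝ) ≤ Real.log n := by
    have hn0 : n ≠ 0 := by omega
    have h1 : (3 : ℝ) ^ (Nat.log 3 n) ≤ n := by
      exact_mod_cast Nat.pow_log_le_self 3 hn0
    have h2 : Real.log ((3 : ℝ) ^ (Nat.log 3 n)) ≤ Real.log n :=
      Real.log_le_log (by positivity) h1
    rw [Real.log_pow] at h2
    have h3 : (0 : ℝ) ≤ (Nat.log 3 n : ℝ) := Nat.cast_nonneg _
    nlinarith
  set σ : ℝ := 2 * ((Nat.log 3 n + 1 : ℕ) : ℝ) - 1 with hσ
  have hσ1 : 1 ≤ σ := by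
    rw [hσ]; push_cast
    have h3 : (0 : ℝ) ≤ (Nat.log 3 n : ℝ) := Nat.cast_nonneg _
    linarith
  have hσle : σ ≤ 4 * Real.log n := by
    rw [hσ]; push_cast; linarith
  set L : ℝ := Real.log (2 * (c : ℝ) + 1) with hL
  have hc0 : (0 : ℝ) ≤ c := Nat.cast_nonneg _
  have hLle : L ≤ 4 * Real.log n := by
    have hcard : (c : ℝ) ≤ (n : ℝ) * n := by exact_mod_cast hc
    have h2 : 2 * (c : ℝ) + 1 ≤ (n : ℝ) ^ 4 := by
      have : (n : ℝ) ^ 4 - 2 * ((n : ℝ) * n) - 1 ≥ 0 := by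
        nlinarith [sq_nonneg ((n : ℝ) ^ 2 - 1), mul_self_nonneg ((n : ℝ)),
          mul_le_mul hn2 hn2 (by norm_num) (by linarith)]
      linarith
    have h3 : L ≤ Real.log ((n : ℝ) ^ 4) := by
      rw [hL]
      exact Real.log_le_log (by linarith) h2
    rw [Real.log_pow] at h3
    push_cast at h3
    linarith
  have hL0 : 0 ≤ L := by
    rw [hL]; apply Real.log_nonneg
    linarith
  set M : ℝ := σ ^ r * (3 * n) with hM
  have hσr : 0 ≤ σ ^ r := Real.rpow_nonneg (by linarith) r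
  have hMle : M ≤ 4 ^ r * (Real.log n) ^ r * (3 * n) := by
    rw [hM, ← Real.mul_rpow (by norm_num) hℓ0.le]
    apply mul_le_mul_of_nonneg_right _ (by linarith)
    exact Real.rpow_le_rpow (by linarith) hσle hr0.le
  have hM0 : 0 ≤ M := by rw [hM]; exact mul_nonneg hσr (by linarith)
  have hε2 : 0 < ε ^ 2 := by positivity
  have hNle : ((⌊3 * M * L / ε ^ 2⌋₊ + 1 : ℕ) : ℝ) ≤ 3 * M * L / ε ^ 2 + 1 := by
    push_cast
    have h0 : 0 ≤ 3 * M * L / ε ^ 2 := div_nonneg (mul_nonneg (mul_nonneg (by norm_num) hM0) hL0) hε2.le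
    have := Nat.floor_le h0
    linarith
  have hpow : (Real.log n) ^ (r + 1) = (Real.log n) ^ r * Real.log n :=
    Real.rpow_add_one hℓ0.ne' r
  have hlr : 0 ≤ (Real.log n) ^ r := Real.rpow_nonneg hℓ0.le r
  have h4r : (0 : ℝ) < 4 ^ r := Real.rpow_pos_of_pos (by norm_num) r
  have hmain : 3 * M * L / ε ^ 2 ≤ 36 * 4 ^ r / ε ^ 2 * n * (Real.log n) ^ (r + 1) := by
    rw [hpow, div_le_iff₀ hε2]
    have h1 : 3 * M * L ≤ 3 * (4 ^ r * (Real.log n) ^ r * (3 * n)) * (4 * Real.log n) := by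
      apply mul_le_mul _ hLle hL0
      · exact mul_nonneg (by norm_num) (mul_nonneg (mul_nonneg h4r.le hlr) (by linarith))
      · linarith
    calc 3 * M * L ≤ 3 * (4 ^ r * (Real.log n) ^ r * (3 * n)) * (4 * Real.log n) := h1
      _ = 36 * 4 ^ r / ε ^ 2 * n * ((Real.log n) ^ r * Real.log n) * ε ^ 2 := by
        field_simp; ring
  have hone : (1 : ℝ) ≤ 2 ^ (r + 1) * n * (Real.log n) ^ (r + 1) := by
    have h1 : (1 : ℝ) ≤ (2 * Real.log n) ^ (r + 1) := Real.one_le_rpow hℓ (by linarith)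
    rw [Real.mul_rpow (by norm_num) hℓ0.le] at h1
    have h2 : (0 : ℝ) ≤ 2 ^ (r + 1) * (Real.log n) ^ (r + 1) := by linarith
    nlinarith
  calc ((⌊3 * M * L / ε ^ 2⌋₊ + 1 : ℕ) : ℝ) ≤ 3 * M * L / ε ^ 2 + 1 := hNle
    _ ≤ 36 * 4 ^ r / ε ^ 2 * n * (Real.log n) ^ (r + 1) + 2 ^ (r + 1) * n * (Real.log n) ^ (r + 1) :=
        add_le_add hmain hone
    _ = (36 * 4 ^ r / ε ^ 2 + 2 ^ (r + 1)) * n * (Real.log n) ^ (r + 1) := by ring


theorem main_fixed (p : ENNReal) [Fact (1 ≤ p)] (hpt : p ≠ ⊤) (ε : ℝ) (hε : 0 < ε) (hε1 : ε < 1)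
    {α : Type u} [MeasurableSpace α] (μ : Measure α) (X : Finset (Lp ℝ p μ)) (hX : 2 ≤ X.card) :
    ∃ d : ℕ, (d : ℝ) ≤ (36 * 4 ^ p.toReal / ε ^ 2 + 2 ^ (p.toReal + 1)) * X.card *
        (Real.log X.card) ^ (p.toReal + 1) ∧
      ∃ f : Lp ℝ p μ → PiLp p (fun _ : Fin d => ℝ), ∀ x ∈ X, ∀ y ∈ X,
        (1 - ε) * ‖x - y‖ ^ p.toReal ≤ ‖f x - f y‖ ^ p.toReal ∧
        ‖f x - f y‖ ^ p.toReal ≤ (1 + ε) * ‖x - y‖ ^ p.toReal := by
  classical
  have hp1 : 1 ≤ p := Fact.out
  have hp0 : p ≠ 0 := (zero_lt_one.trans_le hp1).ne'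
  set r := p.toReal with hr_def
  have hr1 : 1 ≤ r := by
    have := ENNReal.toReal_mono hpt hp1
    simpa using this
  have hr0 : 0 < r := by linarith
  set n := X.card with hn
  have hcardV : Fintype.card {x // x ∈ X} = n := by simp [hn]
  let w : {x // x ∈ X} → {x // x ∈ X} → ℝ := fun u v => ‖(u : Lp ℝ p μ) - v‖
  have hw : ∀ u v, w u v = w v u := fun u v => norm_sub_rev _ _
  have hwpos : ∀ u v, u ≠ v → 0 < w u v := by
    intro u v huv
    have : (u : Lp ℝ p μ) - v ≠ 0 := by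
      intro h0
      exact huv (Subtype.ext (sub_eq_zero.mp h0))
    exact norm_pos_iff.mpr this
  set k := Nat.log 3 n + 1 with hk
  have hk1 : 1 ≤ k := by omega
  have ht : Fintype.card {x // x ∈ X} < 3 ^ k := by
    rw [hcardV]; exact Nat.lt_pow_succ_log_self (by norm_num) n
  obtain ⟨E, hEcard, hEwalk⟩ := Vale.Agent.H5.exists_spanner w hw k 3 hk1 ht
  let F : {x // x ∈ X} → α → ℝ := fun v => ((v : Lp ℝ p μ) : α → ℝ)
  have hFmeas : ∀ v, Measurable (F v) := fun v => (Lp.stronglyMeasurable _).measurable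
  let h : {x // x ∈ X} → {x // x ∈ X} → α → ℝ := fun a b ω => |F a ω - F b ω| ^ r / (w a b) ^ r
  have hsymm : ∀ a b, h a b = h b a := by
    intro a b; funext ω; simp only [h]; rw [abs_sub_comm, hw a b]
  have hnn : ∀ a b ω, 0 ≤ h a b ω := by
    intro a b ω; simp only [h]
    have : 0 ≤ w a b := norm_nonneg _
    positivity
  have hint : ∀ a b, Integrable (h a b) μ := by
    intro a b
    exact (integrable_rpow_sub hp0 hpt (a : Lp ℝ p μ) b).div_const _
  have hint1 : ∀ a b, ∫ ω, h a b ω ∂μ ≤ 1 := by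
    intro a b
    simp only [h]
    rw [integral_div, integral_rpow_sub hp0 hpt]
    exact div_self_le_one _
  have hmeas : ∀ a b, Measurable (h a b) := by
    intro a b
    have h1 := hFmeas a
    have h2 := hFmeas b
    simp only [h]
    fun_prop
  let hE : Sym2 {x // x ∈ X} → α → ℝ := Sym2.lift ⟨h, hsymm⟩
  have hE_mk : ∀ a b, hE s(a, b) = h a b := fun a b => rfl
  have hEnn : ∀ e ω, 0 ≤ hE e ω := by
    intro e ω
    induction e using Sym2.ind with
    | _ a b => rw [hE_mk]; exact hnn a b ω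
  have hEint : ∀ e, Integrable (hE e) μ := by
    intro e
    induction e using Sym2.ind with
    | _ a b => rw [hE_mk]; exact hint a b
  have hEint1 : ∀ e, ∫ ω, hE e ω ∂μ ≤ 1 := by
    intro e
    induction e using Sym2.ind with
    | _ a b => rw [hE_mk]; exact hint1 a b
  have hEmeas : ∀ e, Measurable (hE e) := by
    intro e
    induction e using Sym2.ind with
    | _ a b => rw [hE_mk]; exact hmeas a b
  let S : α → ℝ := fun ω => ∑ e ∈ E, hE e ω
  have hSnn : ∀ ω, 0 ≤ S ω := fun ω => Finset.sum_nonneg (fun e _ => hEnn e ω)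
  have hSint : Integrable S μ := integrable_finsetSum _ (fun e _ => hEint e)
  have hSmeas : Measurable S := Finset.measurable_sum _ (fun e _ => hEmeas e)
  -- pointwise bound along edges
  have hedge : ∀ a b, (SimpleGraph.fromEdgeSet (E : Set (Sym2 {x // x ∈ X}))).Adj a b →
      ∀ ω, |F a ω - F b ω| ≤ w a b * (S ω) ^ (1 / r) := by
    intro a b hab ω
    rw [SimpleGraph.fromEdgeSet_adj] at hab
    have hwp := hwpos a b hab.2
    have h1 : h a b ω ≤ S ω := by
      have : hE s(a, b) ω ≤ S ω :=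
        Finset.single_le_sum (f := fun e => hE e ω) (fun e _ => hEnn e ω) (by exact_mod_cast hab.1)
      simpa [hE_mk] using this
    have h2 : |F a ω - F b ω| ^ r ≤ S ω * (w a b) ^ r := by
      have hwr : 0 < (w a b) ^ r := Real.rpow_pos_of_pos hwp r
      simp only [h] at h1
      rwa [div_le_iff₀ hwr] at h1
    have h3 : |F a ω - F b ω| = (|F a ω - F b ω| ^ r) ^ (1 / r) := by
      rw [← Real.rpow_mul (abs_nonneg _), mul_one_div_cancel hr0.ne', Real.rpow_one]
    rw [h3]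
    calc (|F a ω - F b ω| ^ r) ^ (1 / r) ≤ (S ω * (w a b) ^ r) ^ (1 / r) :=
          Real.rpow_le_rpow (by positivity) h2 (by positivity)
      _ = w a b * (S ω) ^ (1 / r) := by
          rw [Real.mul_rpow (hSnn ω) (by positivity), ← Real.rpow_mul hwp.le,
            mul_one_div_cancel hr0.ne', Real.rpow_one, mul_comm]
  have hwalk : ∀ (u v : {x // x ∈ X})
      (q : (SimpleGraph.fromEdgeSet (E : Set (Sym2 {x // x ∈ X}))).Walk u v) (ω : α),
      |F u ω - F v ω| ≤ (q.darts.map (fun d => w d.fst d.snd)).sum * (S ω) ^ (1 / r) := by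
    intro u v q ω
    induction q with
    | nil => simp
    | cons hadj q ih =>
      rw [SimpleGraph.Walk.darts_cons, List.map_cons, List.sum_cons, add_mul]
      calc |F _ ω - F _ ω| ≤ |F _ ω - F _ ω| + |F _ ω - F _ ω| := abs_sub_le _ _ _
        _ ≤ _ := add_le_add (hedge _ _ hadj ω) ih
  set σ : ℝ := 2 * (k : ℝ) - 1 with hσ
  have hσ1 : 1 ≤ σ := by
    have : (1 : ℝ) ≤ k := by exact_mod_cast hk1
    rw [hσ]; linarith
  have hpair : ∀ u v, u ≠ v → ∀ ω, |F u ω - F v ω| ^ r ≤ σ ^ r * (w u v) ^ r * S ω := by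
    intro u v huv ω
    obtain ⟨q, hq⟩ := hEwalk u v huv
    have h1 := hwalk u v q ω
    have hS0 : 0 ≤ (S ω) ^ (1 / r) := Real.rpow_nonneg (hSnn ω) _
    have h2 : |F u ω - F v ω| ≤ σ * w u v * (S ω) ^ (1 / r) :=
      h1.trans (mul_le_mul_of_nonneg_right hq hS0)
    have hwp := hwpos u v huv
    calc |F u ω - F v ω| ^ r ≤ (σ * w u v * (S ω) ^ (1 / r)) ^ r :=
          Real.rpow_le_rpow (abs_nonneg _) h2 hr0.le
      _ = σ ^ r * (w u v) ^ r * S ω := by
          rw [Real.mul_rpow (by positivity) hS0, Real.mul_rpow (by linarith) hwp.le,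
            ← Real.rpow_mul (hSnn ω), one_div_mul_cancel hr0.ne', Real.rpow_one]
  -- two distinct points
  obtain ⟨x₀, hx₀, y₀, hy₀, hxy₀⟩ := Finset.one_lt_card.mp (show 1 < X.card by omega)
  set c : ℝ := ∫ ω, S ω ∂μ with hc
  have hc0 : 0 ≤ c := integral_nonneg hSnn
  have hcle : c ≤ 3 * n := by
    have h1 : c = ∑ e ∈ E, ∫ ω, hE e ω ∂μ := by
      rw [hc]; exact integral_finsetSum _ (fun e _ => hEint e)
    have h2 : c ≤ E.card := by
      rw [h1]
      calc ∑ e ∈ E, ∫ ω, hE e ω ∂μ ≤ ∑ e ∈ E, (1 : ℝ) := Finset.sum_le_sum (fun e _ => hEint1 e)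
        _ = E.card := by simp
    have h3 : (E.card : ℝ) ≤ 3 * n := by
      have : E.card ≤ n * 3 := by rw [← hcardV]; exact hEcard
      have : (E.card : ℝ) ≤ (n * 3 : ℕ) := by exact_mod_cast this
      push_cast at this; linarith
    linarith
  have hcpos : 0 < c := by
    rcases hc0.lt_or_eq with h | h
    · exact h
    · exfalso
      have hS0 : S =ᵐ[μ] 0 := (integral_eq_zero_iff_of_nonneg hSnn hSint).mp h.symm
      let u : {x // x ∈ X} := ⟨x₀, hx₀⟩
      let v : {x // x ∈ X} := ⟨y₀, hy₀⟩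
      have huv : u ≠ v := fun h => hxy₀ (congrArg Subtype.val h)
      have h0 : ∫ a, |F u a - F v a| ^ r ∂μ = 0 := by
        have : (fun a => |F u a - F v a| ^ r) =ᵐ[μ] 0 := by
          filter_upwards [hS0] with a ha
          have h1 := hpair u v huv a
          rw [ha] at h1
          simp only [Pi.zero_apply, mul_zero] at h1
          have h2 : 0 ≤ |F u a - F v a| ^ r := by positivity
          simp only [Pi.zero_apply]
          linarith
        rw [integral_congr_ae this]; simp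
      have h1 : ‖(u : Lp ℝ p μ) - v‖ ^ r = 0 := by
        rw [← integral_rpow_sub hp0 hpt]; exact h0
      have h2 := hwpos u v huv
      have h3 : 0 < ‖(u : Lp ℝ p μ) - v‖ ^ r := Real.rpow_pos_of_pos h2 r
      linarith
  -- the sampling density
  let q : α → ℝ := fun ω => S ω / c
  have hqnn : ∀ ω, 0 ≤ q ω := fun ω => div_nonneg (hSnn ω) hc0
  have hqmeas : Measurable q := hSmeas.div_const c
  have hqint : Integrable q μ := hSint.div_const c
  have hqint1 : ∫ ω, q ω ∂μ = 1 := by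
    simp only [q]
    rw [integral_div, ← hc, div_self hcpos.ne']
  have hSq : ∀ ω, S ω = c * q ω := by
    intro ω; simp only [q]; field_simp
  let P : Measure α := μ.withDensity (fun ω => ENNReal.ofReal (q ω))
  have hPprob : IsProbabilityMeasure P := by
    constructor
    simp only [P]
    rw [withDensity_apply _ MeasurableSet.univ, Measure.restrict_univ,
      ← ofReal_integral_eq_lintegral_ofReal hqint (Filter.Eventually.of_forall hqnn), hqint1,
      ENNReal.ofReal_one]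
  have hPint : ∀ G : α → ℝ, ∫ ω, G ω ∂P = ∫ ω, q ω * G ω ∂μ := by
    intro G
    simp only [P]
    rw [integral_withDensity_eq_integral_toReal_smul (by fun_prop)
      (Filter.Eventually.of_forall (fun ω => ENNReal.ofReal_lt_top))]
    apply integral_congr_ae
    filter_upwards with ω
    rw [ENNReal.toReal_ofReal (hqnn ω), smul_eq_mul]
  -- the family of functions
  let g : {z : {x // x ∈ X} × {x // x ∈ X} // z.1 ≠ z.2} → α → ℝ :=
    fun j ω => |F j.1.1 ω - F j.1.2 ω| ^ r / ((w j.1.1 j.1.2) ^ r * q ω)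
  have hgmeas : ∀ j, Measurable (g j) := by
    intro j
    have h1 := hFmeas j.1.1
    have h2 := hFmeas j.1.2
    simp only [g]
    fun_prop
  set M : ℝ := σ ^ r * (3 * n) with hM
  have hn2 : (2 : ℝ) ≤ n := by exact_mod_cast hX
  have hσr : 1 ≤ σ ^ r := Real.one_le_rpow hσ1 hr0.le
  have hM1 : 1 ≤ M := by
    rw [hM]; nlinarith
  have hg0 : ∀ j ω, 0 ≤ g j ω := by
    intro j ω
    simp only [g]
    have h1 : 0 ≤ w j.1.1 j.1.2 := norm_nonneg _
    have h2 := hqnn ω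
    positivity
  have hgM : ∀ j ω, g j ω ≤ M := by
    intro j ω
    have hwp := hwpos j.1.1 j.1.2 j.2
    have hwr : 0 < (w j.1.1 j.1.2) ^ r := Real.rpow_pos_of_pos hwp r
    rcases (hqnn ω).lt_or_eq with hq | hq
    · simp only [g]
      rw [div_le_iff₀ (by positivity)]
      have h1 := hpair j.1.1 j.1.2 j.2 ω
      rw [hSq ω] at h1
      have h2 : σ ^ r * (w j.1.1 j.1.2) ^ r * (c * q ω) ≤ σ ^ r * (w j.1.1 j.1.2) ^ r * (3 * n * q ω) := by
        apply mul_le_mul_of_nonneg_left _ (by positivity)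
        exact mul_le_mul_of_nonneg_right hcle hq.le
      rw [hM]
      calc |F j.1.1 ω - F j.1.2 ω| ^ r ≤ σ ^ r * (w j.1.1 j.1.2) ^ r * (3 * n * q ω) := h1.trans h2
        _ = σ ^ r * (3 * n) * ((w j.1.1 j.1.2) ^ r * q ω) := by ring
    · simp only [g]
      rw [← hq, mul_zero, div_zero]
      linarith
  have hgint : ∀ j, ∫ ω, g j ω ∂P = 1 := by
    intro j
    have hwp := hwpos j.1.1 j.1.2 j.2
    have hwr : 0 < (w j.1.1 j.1.2) ^ r := Real.rpow_pos_of_pos hwp r
    rw [hPint]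
    have h1 : ∀ ω, q ω * g j ω = |F j.1.1 ω - F j.1.2 ω| ^ r / (w j.1.1 j.1.2) ^ r := by
      intro ω
      rcases (hqnn ω).lt_or_eq with hq | hq
      · simp only [g]; field_simp
      · have h2 := hpair j.1.1 j.1.2 j.2 ω
        rw [hSq ω, ← hq, mul_zero, mul_zero] at h2
        have h3 : 0 ≤ |F j.1.1 ω - F j.1.2 ω| ^ r := by positivity
        have h4 : |F j.1.1 ω - F j.1.2 ω| ^ r = 0 := le_antisymm h2 h3
        rw [← hq, h4]; simp
    simp only [h1]
    rw [integral_div, integral_rpow_sub hp0 hpt]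
    exact div_self hwr.ne'
  -- sample
  set L : ℝ := Real.log (2 * (Fintype.card {z : {x // x ∈ X} × {x // x ∈ X} // z.1 ≠ z.2} : ℝ) + 1)
    with hL
  set N : ℕ := ⌊3 * M * L / ε ^ 2⌋₊ + 1 with hN
  have hNlt : 3 * M * L / ε ^ 2 < N := by
    rw [hN]; push_cast; exact Nat.lt_floor_add_one _
  have hNpos : (0 : ℝ) < N := by rw [hN]; positivity
  obtain ⟨ω, hω⟩ := Vale.Agent.H73.exists_sample P g hgmeas M ε hM1 hε hε1.le
    (fun j => Filter.Eventually.of_forall (hg0 j)) (fun j => Filter.Eventually.of_forall (hgM j))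
    hgint N hNlt
  let f : Lp ℝ p μ → PiLp p (fun _ : Fin N => ℝ) := fun x =>
    WithLp.toLp p (fun i => x (ω i) / ((N : ℝ) * q (ω i)) ^ (1 / r))
  have hfnorm : ∀ x y : Lp ℝ p μ, ‖f x - f y‖ ^ r =
      ∑ i, |x (ω i) - y (ω i)| ^ r / ((N : ℝ) * q (ω i)) := by
    intro x y
    rw [PiLp.norm_eq_sum hr0, ← Real.rpow_mul (Finset.sum_nonneg (fun i _ => by positivity)),
      one_div_mul_cancel hr0.ne', Real.rpow_one]
    apply Finset.sum_congr rfl
    intro i _
    have hc : 0 ≤ (N : ℝ) * q (ω i) := mul_nonneg hNpos.le (hqnn _)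
    have hc' : 0 ≤ ((N : ℝ) * q (ω i)) ^ (1 / r) := Real.rpow_nonneg hc _
    have h1 : (f x - f y) i = (x (ω i) - y (ω i)) / ((N : ℝ) * q (ω i)) ^ (1 / r) := by
      simp only [f, PiLp.sub_apply]; rw [sub_div]
    rw [h1, Real.norm_eq_abs, abs_div, abs_of_nonneg hc', Real.div_rpow (abs_nonneg _) hc',
      ← Real.rpow_mul hc, one_div_mul_cancel hr0.ne', Real.rpow_one]
  refine ⟨N, ?_, f, ?_⟩
  · have hcard : Fintype.card {z : {x // x ∈ X} × {x // x ∈ X} // z.1 ≠ z.2} ≤ n * n := by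
      have h1 : Fintype.card {z : {x // x ∈ X} × {x // x ∈ X} // z.1 ≠ z.2} ≤
          Fintype.card ({x // x ∈ X} × {x // x ∈ X}) := Fintype.card_subtype_le _
      rwa [Fintype.card_prod, hcardV] at h1
    have := dim_bound n hX r ε hr1 hε _ hcard
    rw [hN, hL, hM, hσ, hk]
    exact this
  · intro x hx y hy
    by_cases hxy : x = y
    · subst hxy
      simp [Real.zero_rpow hr0.ne']
    · let j : {z : {x // x ∈ X} × {x // x ∈ X} // z.1 ≠ z.2} :=
        ⟨(⟨x, hx⟩, ⟨y, hy⟩), fun h => hxy (congrArg Subtype.val h)⟩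
      have hj := hω j
      have hwp : 0 < ‖x - y‖ := hwpos ⟨x, hx⟩ ⟨y, hy⟩ j.2
      have hwr : 0 < ‖x - y‖ ^ r := Real.rpow_pos_of_pos hwp r
      have hsum : ‖f x - f y‖ ^ r = ‖x - y‖ ^ r * ((∑ i, g j (ω i)) / N) := by
        rw [hfnorm, Finset.sum_div, Finset.mul_sum]
        apply Finset.sum_congr rfl
        intro i _
        simp only [g, j, F, w]
        by_cases hq : q (ω i) = 0
        · simp [hq]
        · field_simp
      rw [hsum]
      rw [abs_le] at hj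
      constructor
      · rw [mul_comm]
        exact mul_le_mul_of_nonneg_left (by linarith [hj.1]) hwr.le
      · rw [mul_comm (1 + ε)]
        exact mul_le_mul_of_nonneg_left (by linarith [hj.2]) hwr.le



theorem dimension_reduction (p : ENNReal) [Fact (1 ≤ p)] (hp : p ≠ ⊤) (D : ℝ) (hD : 1 < D) :
    ∃ C : ℝ, ∀ {α : Type u} [MeasurableSpace α] (μ : Measure α) (X : Finset (Lp ℝ p μ)),
      2 ≤ X.card →
      ∃ d : ℕ, (d : ℝ) ≤ C * X.card * Real.log X.card ^ (p.toReal + 1) ∧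
        ∃ (f : Lp ℝ p μ → PiLp p (fun _ : Fin d => ℝ)) (s : ℝ), 0 < s ∧
          ∀ x ∈ X, ∀ y ∈ X, s * ‖x - y‖ ≤ ‖f x - f y‖ ∧ ‖f x - f y‖ ≤ D * s * ‖x - y‖ := by
  have hp1 : 1 ≤ p := Fact.out
  have hr1 : 1 ≤ p.toReal := by
    have := ENNReal.toReal_mono hp hp1
    simpa using this
  have hr0 : 0 < p.toReal := by linarith
  have hDr : 1 < D ^ p.toReal := Real.one_lt_rpow hD hr0
  have hε : 0 < (D ^ p.toReal - 1) / (D ^ p.toReal + 1) := div_pos (by linarith) (by linarith)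
  have hε1 : (D ^ p.toReal - 1) / (D ^ p.toReal + 1) < 1 := by
    rw [div_lt_one (by linarith)]; linarith
  have h1mε : 1 - (D ^ p.toReal - 1) / (D ^ p.toReal + 1) = 2 / (D ^ p.toReal + 1) := by
    field_simp; ring
  have h1pε : 1 + (D ^ p.toReal - 1) / (D ^ p.toReal + 1) =
      D ^ p.toReal * (2 / (D ^ p.toReal + 1)) := by
    field_simp; ring
  have hs0 : 0 < 2 / (D ^ p.toReal + 1) := div_pos (by norm_num) (by linarith)
  refine ⟨36 * 4 ^ p.toReal / ((D ^ p.toReal - 1) / (D ^ p.toReal + 1)) ^ 2 +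
    2 ^ (p.toReal + 1), ?_⟩
  intro α _ μ X hX
  obtain ⟨d, hd, f, hf⟩ := main_fixed p hp _ hε hε1 μ X hX
  refine ⟨d, hd, f, (2 / (D ^ p.toReal + 1)) ^ (1 / p.toReal), Real.rpow_pos_of_pos hs0 _, ?_⟩
  intro x hx y hy
  obtain ⟨h1, h2⟩ := hf x hx y hy
  rw [h1mε] at h1
  rw [h1pε] at h2
  have hroot : ∀ t : ℝ, 0 ≤ t → (t ^ p.toReal) ^ (1 / p.toReal) = t := by
    intro t ht
    rw [← Real.rpow_mul ht, mul_one_div_cancel hr0.ne', Real.rpow_one]
  have hw : 0 ≤ ‖x - y‖ := norm_nonneg _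
  have hwr : 0 ≤ ‖x - y‖ ^ p.toReal := Real.rpow_nonneg hw _
  constructor
  · have h3 := Real.rpow_le_rpow (mul_nonneg hs0.le hwr) h1 (one_div_nonneg.mpr hr0.le)
    rwa [Real.mul_rpow hs0.le hwr, hroot _ hw, hroot _ (norm_nonneg _)] at h3
  · have h3 := Real.rpow_le_rpow (Real.rpow_nonneg (norm_nonneg _) _) h2
      (one_div_nonneg.mpr hr0.le)
    have hD0 : 0 ≤ D := by linarith
    rwa [hroot _ (norm_nonneg _), Real.mul_rpow (mul_nonneg (Real.rpow_nonneg hD0 _) hs0.le) hwr,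
      Real.mul_rpow (Real.rpow_nonneg hD0 _) hs0.le, hroot _ hw, hroot _ hD0] at h3

end Vale.Agent.Lead.P249
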